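import Vale.Agent.P247.Circle.Main

/-! Hypersymplectic deformation on the four-torus when a circle preserves two of the three forms. -/

namespace Vale.Agent.Results.P247.CircleTwoForms

open scoped ContDiff
open MeasureTheory Set Vale.Agent.P247.Circle

theorem result (u : Fin 3 → Pt → Form2) (hu : Hypersymplectic u)
    (hnorm : ∀ i j, av (fun x => wedge (u i x) (u j x)) = if i = j then 1 else 0)
    (hinv : ∀ i, i ≠ 2 → ∀ x (s : ℝ), u i (x + s • bv 0) = u i x) :
    ∃ U : ℝ → Fin 3 → Pt → Form2,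
      (∀ i q m, ContDiff ℝ ∞ fun p : ℝ × Pt => U p.1 i p.2 q m) ∧ U 0 = u ∧
      (∀ s, Hypersymplectic (U s) ∧
        ∀ i q m, av (fun x => U s i x q m) = av (fun x => u i x q m)) ∧
      ∀ x, ∃ f : ℝ, 0 < f ∧ ∀ i j, wedge (U 1 i x) (U 1 j x) = if i = j then 2 * f else 0 :=
  main hu hinv hnorm

end Vale.Agent.Results.P247.CircleTwoForms
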