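import Vale.Agent.P247.Main

/-! Cohomologous deformation to a hyperkaehler triple for a class of hypersymplectic triples on the
four-torus. -/

namespace Vale.Agent.Results.P247.TwoConstantMembers

open scoped ContDiff
open Vale.Agent.P247 Vale.Agent.P204

theorem result (w : Fin 3 → (Fin 4 → ℝ) → Matrix (Fin 4) (Fin 4) ℝ)
    (hw : IsHypersymplectic w) (hn : IsNormalized w)
    (hcase : ((∀ x, w 0 x = w 0 0) ∧ ∀ x, w 1 x = w 1 0) ∨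
      ∀ x, ∀ c : Fin 3 → ℝ, c ≠ 0 → 0 < ∑ i, ∑ j, c i * c j * wedge (w i x) (period (w j))) :
    ∃ Φ : ℝ → Fin 3 → (Fin 4 → ℝ) → Matrix (Fin 4) (Fin 4) ℝ,
      (∀ i a b, ContDiff ℝ ∞ fun p : ℝ × (Fin 4 → ℝ) => Φ p.1 i p.2 a b) ∧ Φ 0 = w ∧
      (∀ t ∈ Set.Icc (0 : ℝ) 1, IsHypersymplectic (Φ t) ∧ ∀ i, period (Φ t i) = period (w i)) ∧
      ∃ h : (Fin 4 → ℝ) → ℝ, (∀ x, 0 < h x) ∧
        ∀ x i j, wedge (Φ 1 i x) (Φ 1 j x) = if i = j then 2 * h x else 0 :=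
  main w hw hn hcase

end Vale.Agent.Results.P247.TwoConstantMembers
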